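import Vale.Agent.P354PU.Gen
import Vale.Agent.P354M2.Pull
import Vale.Agent.P354RC.Alg

/-!
PULL, part 1: smoothness, constraints and developments under a change of coordinates.
-/

open scoped ContDiff
open Set Filter Topology Matrix

noncomputable section

namespace Vale.Agent.P354PU

open Vale.Agent.P354JK Vale.Agent.P354J
open Vale.Agent.P354H (X3)
open Vale.Agent.P354I (X ee Dat Cy1 Cyl Con Eqv IsDev pd)
open Vale.Agent.P354M2 (at0 pd_sm)
open Vale.Agent.P354n (R4 Spc tgt co IsSpacetime IsSmooth mink)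

/-- The Jacobian of a self map of the cylinder. -/
def JX (ψ : X → X) (y : X) : M3 := Matrix.of fun i k => pd i ψ y k

variable {B : ℕ → ℝ} {ψ ψ' : X → X} {d : Dat} {y : X}

lemma conj_eq (J F : M3) :
    (Matrix.of fun i j => ∑ k, ∑ l, J i k * J j l * F k l) = J * F * Jᵀ := by
  ext i j
  simp only [of_apply, Matrix.mul_apply, transpose_apply, Fin.sum_univ_three]
  ring

lemma pull_h (d : Dat) (ψ : X → X) (y : X) :
    (d.pull ψ).h y = JX ψ y * d.h (ψ y) * (JX ψ y)ᵀ := conj_eq (JX ψ y) _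

lemma pull_K (d : Dat) (ψ : X → X) (y : X) :
    (d.pull ψ).K y = JX ψ y * d.K (ψ y) * (JX ψ y)ᵀ := conj_eq (JX ψ y) _

lemma fd_vec {V : Type} [NormedAddCommGroup V] [NormedSpace ℝ V] (f : X → V) (y v : X) :
    fderiv ℝ f y v = ∑ k, v k • pd k f y := by
  have h3 : v = ∑ i, v i • ee i := by
    ext j
    simp [ee, Pi.single_apply]
  conv_lhs => rw [h3, map_sum]
  simp only [map_smul, pd]

lemma pd_chain {V : Type} [NormedAddCommGroup V] [NormedSpace ℝ V] {f : X → V}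
    (hf : DifferentiableAt ℝ f (ψ y)) (h : DifferentiableAt ℝ ψ y) (i : Fin 3) :
    pd i (fun w => f (ψ w)) y = ∑ k, JX ψ y i k • pd k f (ψ y) := by
  rw [show (∑ k, JX ψ y i k • pd k f (ψ y)) = _ from (fd_vec f (ψ y) (pd i ψ y)).symm]
  exact congrArg (fun L : X →L[ℝ] V => L (ee i)) (hf.hasFDerivAt.comp y h.hasFDerivAt).fderiv

lemma df0 {V : Type} [NormedAddCommGroup V] [NormedSpace ℝ V] {F : X → V}
    (h : ContDiffOn ℝ ∞ F {0}ᶜ) (hy : y ≠ 0) : DifferentiableAt ℝ F y :=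
  (at0 h hy).differentiableAt (by simp)

lemma JX_inv (l : Cy1 B ψ) (r : Cy1 B ψ') (hi : ∀ y ≠ 0, ψ (ψ' y) = y) (hy : y ≠ 0) :
    JX ψ' y * JX ψ (ψ' y) = 1 := by
  have ev : (fun w => ψ (ψ' w)) =ᶠ[𝓝 y] id := (eventually_ne_nhds hy).mono hi
  ext i k
  have h1 := congrArg (fun v : X => v k) (pd_chain (df0 l.sm (r.ne y hy)) (df0 r.sm hy) i)
  simp only [pd, ev.fderiv_eq, fderiv_id, ContinuousLinearMap.id_apply] at h1
  simp only [Matrix.mul_apply, Matrix.one_apply]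
  simpa [ee, Pi.single_apply, eq_comm, JX, pd] using h1.symm

lemma JX_det (h : Cyl B ψ ψ') (hy : y ≠ 0) : (JX ψ y).det ≠ 0 := fun e => by
  have := congrArg det (JX_inv h.r h.l (fun y hy => (h.inv y hy).2) hy)
  rw [det_mul, e, zero_mul, det_one] at this
  exact zero_ne_one this

lemma pdy_pull (h : Cyl B ψ ψ') (D : PDy d) : PDy (d.pull ψ) := by
  have s : ∀ F : X → M3, (∀ k l, ContDiffOn ℝ ∞ (fun y => F y k l) {0}ᶜ) → ∀ i j, ContDiffOn ℝ ∞
      (fun y => ∑ k, ∑ l, pd i ψ y k * pd j ψ y l * F (ψ y) k l) {0}ᶜ := fun F hF i j =>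
    ContDiffOn.sum fun k _ => ContDiffOn.sum fun l _ =>
      ((pd_sm h.l.sm i k).mul (pd_sm h.l.sm j l)).mul ((hF k l).comp h.l.sm h.l.ne)
  refine ⟨fun i j => ⟨s _ (fun k l => (D.1 k l).1) i j, s _ (fun k l => (D.1 k l).2) i j⟩,
    fun y hy => ⟨?_, ?_⟩⟩
  · have := (D.2 _ (h.l.ne y hy)).1.mul_mul_conjTranspose_same (B := JX ψ y)
      (Matrix.vecMul_injective_iff_isUnit.2 ((Matrix.isUnit_iff_isUnit_det _).2
        (JX_det h hy).isUnit))
    rwa [conjTranspose_eq_transpose_of_trivial, ← pull_h] at this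
  · unfold IsSymm
    rw [pull_K, transpose_mul, transpose_mul, transpose_transpose, (D.2 _ (h.l.ne y hy)).2.eq,
      mul_assoc]

lemma JG_comp (h : Cy1 B ψ) (σ : Bool) (z : X3) :
    JG (fun w => ψ (Phi σ w)) z = Jm σ z * JX ψ (Phi σ z) := by
  have d1 := (phi_smooth σ).differentiable (by simp) z
  have d2 := df0 h.sm (phi_ne σ z)
  ext a k
  rw [JG_eq (d2.fun_comp' z d1), show fderiv ℝ (fun w => ψ (Phi σ w)) z = _ from fderiv_comp z d2 d1,
    ContinuousLinearMap.comp_apply, fd_vec, Matrix.mul_apply]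
  simp [← JG_eq d1, JX, JG, Jm]

lemma con_pull (h : Cyl B ψ ψ') (D : PDy d) (c : Con d) : Con (d.pull ψ) := by
  intro y hy
  obtain ⟨σ, z, rfl⟩ : ∃ σ z, y = Phi σ z := by
    obtain ⟨σ, h⟩ : ∃ σ, 0 ≤ P354E.sg σ * y 2 := by
      rcases le_total 0 (y 2) with h | h
      exacts [⟨true, by simpa [P354E.sg]⟩, ⟨false, by simpa [P354E.sg]⟩]
    exact ⟨σ, _, (phi_psi σ hy (by linarith [norm_pos_iff.2 hy])).symm⟩
  have g : Gd fun w => ψ (Phi σ w) :=
    ⟨h.l.sm.comp_contDiff (phi_smooth σ) (phi_ne σ), fun z => h.l.ne _ (phi_ne σ z), fun z => by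
      rw [JG_comp h.l, det_mul]
      exact mul_ne_zero (det_Jm σ z) (JX_det h (phi_ne σ z))⟩
  have e1 : pb σ (d.pull ψ).h = pg (fun w => ψ (Phi σ w)) d.h := funext fun z => by
    simp only [pb, pg, JG_comp h.l, pull_h, transpose_mul, mul_assoc]
  have e2 : pb σ (d.pull ψ).K = pg (fun w => ψ (Phi σ w)) d.K := funext fun z => by
    simp only [pb, pg, JG_comp h.l, pull_K, transpose_mul, mul_assoc]
  refine ((sl2 _ σ (pdy_pull h D)).2 z).1 ?_
  rw [e1, e2]
  exact (sl2G D g z).2 (c _ (g.ne z))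

lemma eqv_pull (h : Cyl B ψ ψ') (d : Dat) : Eqv ((d.pull ψ).pull ψ') d := by
  intro y hy
  have e := JX_inv h.l h.r (fun y hy => (h.inv y hy).1) hy
  have k : ∀ F : M3, JX ψ' y * (JX ψ (ψ' y) * F * (JX ψ (ψ' y))ᵀ) * (JX ψ' y)ᵀ = F := fun F => by
    rw [← mul_assoc, ← mul_assoc, e, one_mul, mul_assoc, ← transpose_mul, e, transpose_one,
      mul_one]
  simp only [pull_h, pull_K, k, (h.inv y hy).1, and_self]

lemma met_sp {N : Spc} (h : IsSpacetime IsSmooth N) (e : N.Chart) :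
    P354R.Met (N.g e) (tgt e) := by
  refine ⟨fun y hy a => ?_, fun y hy a b => ?_, fun y hy a ha => ?_, h.regular e⟩ <;>
    obtain ⟨L, l, i, m⟩ := h.signature e y hy
  · refine ⟨fun b c => ?_, fun s b => ?_⟩ <;>
      simp only [m, l.map_add, l.map_smul, mink, P354n.cu, P354n.cv, P354n.c1, P354n.c2,
        Prod.fst_add, Prod.snd_add, Prod.smul_fst, Prod.smul_snd, smul_eq_mul] <;> ring
  · simp only [m, mink]
    ring
  · have s : Function.Surjective L := LinearMap.injective_iff_surjective.1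
      (show Function.Injective (IsLinearMap.mk' L l) from i)
    obtain ⟨b, hb⟩ := s (-(L a).1, (L a).2)
    have k := ha b
    simp only [m, hb, mink, P354n.cu, P354n.cv, P354n.c1, P354n.c2] at k
    refine i ?_
    rw [l.map_zero]
    have := mul_self_nonneg (L a).1
    have := mul_self_nonneg (L a).2.1
    have := mul_self_nonneg (L a).2.2.1
    have := mul_self_nonneg (L a).2.2.2
    ext <;> exact mul_self_eq_zero.1 (by linarith)

lemma dev_pull (h : Cyl B ψ ψ') {N : Spc} {j : X → N.pt} (H : IsDev (d.pull ψ) N j) :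
    IsDev d N (j ∘ ψ') := by
  let φ : ({0}ᶜ : Set X) ≃ₜ ({0}ᶜ : Set X) :=
    { toFun := fun y => ⟨ψ' y, h.r.ne _ y.2⟩
      invFun := fun y => ⟨ψ y, h.l.ne _ y.2⟩
      left_inv := fun y => Subtype.ext (h.inv _ y.2).1
      right_inv := fun y => Subtype.ext (h.inv _ y.2).2
      continuous_toFun := h.r.sm.continuousOn.domRestrict.subtype_mk _
      continuous_invFun := h.l.sm.continuousOn.domRestrict.subtype_mk _ }
  have im : (j ∘ ψ') '' {0}ᶜ = j '' {0}ᶜ := by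
    refine Subset.antisymm ?_ ?_ <;> rintro _ ⟨y, hy, rfl⟩
    exacts [⟨_, h.r.ne y hy, rfl⟩, ⟨_, h.l.ne y hy, congrArg j (h.inv y hy).2⟩]
  refine ⟨H.spacetime, H.connected, H.countable, H.vacuum, H.embedding.comp φ.isEmbedding,
    im ▸ H.cauchy, fun y hy => ?_⟩
  obtain ⟨e, J, G, n, hJ, on, sJ, cn, nn, nX, k⟩ := H.induced _ (h.r.ne y hy)
  refine ⟨e, fun w => J (ψ' w), G, n, by rw [hJ]; rfl, on, sJ.comp y (at0 h.r.sm hy), cn, nn, nX,
    fun i l => ?_⟩
  obtain ⟨g, r⟩ := P354RC.rp_of_met (N.toE e).open_target (met_sp H.spacetime e)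
  have m : J (ψ' y) ∈ tgt e := hJ ▸ (N.toE e).map_source on
  have dψ := df0 h.r.sm hy
  have p1 : ∀ i, pd i (fun w => J (ψ' w)) y = ∑ a, JX ψ' y i a • pd a J (ψ' y) :=
    pd_chain (sJ.differentiableAt (by simp)) dψ
  have dJ : ∀ b, DifferentiableAt ℝ (pd b J) (ψ' y) := fun b =>
    ((sJ.fderiv_right (m := ∞) le_rfl).clm_apply contDiffAt_const).differentiableAt (by simp)
  have ev : pd l (fun w => J (ψ' w)) =ᶠ[𝓝 y] fun w => ∑ b, JX ψ' w l b • pd b J (ψ' w) := by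
    filter_upwards [eventually_ne_nhds hy, dψ.continuousAt.eventually
      ((sJ.of_le (m := 1) (by simp)).eventually (by simp))] with w hw h1
    exact pd_chain (h1.differentiableAt (by simp)) (df0 h.r.sm hw) l
  have p2 : pd i (pd l fun w => J (ψ' w)) y = ∑ b, (JX ψ' y l b • ∑ a, JX ψ' y i a •
      pd a (pd b J) (ψ' y) + pd i (fun w => JX ψ' w l b) y • pd b J (ψ' y)) := by
    have d1 : ∀ b, DifferentiableAt ℝ (fun w => JX ψ' w l b) y := fun b =>
      df0 (pd_sm h.r.sm l b) hy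
    have d2 : ∀ b, DifferentiableAt ℝ (fun w => pd b J (ψ' w)) y := fun b => (dJ b).comp y dψ
    simp only [← pd_chain (dJ _) dψ]
    rw [pd, ev.fderiv_eq, fderiv_fun_sum fun b _ => (d1 b).fun_smul (d2 b),
      _root_.sum_apply]
    exact Finset.sum_congr rfl fun b _ => by rw [fderiv_fun_smul (d1 b) (d2 b)]; rfl
  have c := (r.conn m).1 cn
  have q := eqv_pull h d y hy
  simp only [r.eq _ m, c] at k ⊢
  have k0 : ∀ a, g (J (ψ' y)) (pd a J (ψ' y)) n = 0 := fun a => (k a a).1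
  have k1 : ∀ a, g (J (ψ' y)) n (pd a J (ψ' y)) = 0 := fun a => (r.symm _ m _ _).trans (k0 a)
  have k2 := fun a b => (k a b).2.1
  have k3 : ∀ a b, g (J (ψ' y)) n (pd a (pd b J) (ψ' y)) = -(d.pull ψ).K (ψ' y) a b -
      g (J (ψ' y)) n (P354RC.Gm g (J (ψ' y)) (pd a J (ψ' y)) (pd b J (ψ' y))) := fun a b => by
    have := (k a b).2.2
    rw [map_add] at this
    linarith
  rw [← q.1, ← q.2, pull_h _ ψ', pull_K _ ψ', p2]
  simp only [p1, Fin.sum_univ_three, P354RC.Gm_add1, P354RC.Gm_add2, P354RC.Gm_smul1,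
    P354RC.Gm_smul2, map_add, map_smul, _root_.add_apply,
    _root_.smul_apply, smul_eq_mul, k0, k1, k2, k3, Matrix.mul_apply, transpose_apply]
  refine ⟨?_, ?_, ?_⟩ <;> ring

/-- **PULL.** -/
theorem pull : P354I.PULL := P354M2.pull_of fun _ _ _ d h D =>
  ⟨pdy_pull h D, con_pull h D, eqv_pull h d, fun _ _ => dev_pull h⟩

end Vale.Agent.P354PU
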