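import Vale.Agent.P354J.Pull
import Vale.Agent.P354I.Core2

/-!
The constraint equations under a general smooth map from a chart to the cylinder.
-/

open scoped ContDiff
open Set Filter Topology Matrix

noncomputable section

namespace Vale.Agent.P354PU

open Vale.Agent.P354H Vale.Agent.P354JK Vale.Agent.P354J
open Vale.Agent.P354I (X ee)

/-- The Jacobian of a map and the pull back of a 2-tensor. -/
def JG (Φ : X3 → X) (z : X3) : M3 := Matrix.of fun a i => pd a (fun w => Φ w i) z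
def pg (Φ : X3 → X) (F : X → M3) (z : X3) : M3 := JG Φ z * F (Φ z) * (JG Φ z)ᵀ

/-- A local diffeomorphism to the cylinder. -/
structure Gd (Φ : X3 → X) : Prop where
  sm : ContDiff ℝ ∞ Φ
  ne : ∀ z, Φ z ≠ 0
  det : ∀ z, (JG Φ z).det ≠ 0

variable {Φ : X3 → X} {f : X → ℝ} {d : P354I.Dat}

lemma JG_eq {z : X3} (h : DifferentiableAt ℝ Φ z) (a i : Fin 3) :
    JG Φ z a i = fderiv ℝ Φ z (e a) i :=
  congrArg (fun L : X3 →L[ℝ] ℝ => L (e a))
    ((EuclideanSpace.proj i : X →L[ℝ] ℝ).hasFDerivAt.comp z h.hasFDerivAt).fderiv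

lemma y_compG (hf : ContDiffOn ℝ ∞ f {0}ᶜ) (g : Gd Φ) : ContDiff ℝ ∞ fun z => f (Φ z) :=
  hf.comp_contDiff g.sm g.ne

lemma chainG (hf : ContDiffOn ℝ ∞ f {0}ᶜ) (g : Gd Φ) (a : Fin 3) (z : X3) :
    pd a (fun w => f (Φ w)) z = ∑ i, JG Φ z a i * P354I.pd i f (Φ z) := by
  have h1 := ((y_diff hf (g.ne z)).hasFDerivAt.comp z
    (sm_diff (g.sm) z).hasFDerivAt).fderiv
  have h2 : pd a (fun w => f (Φ w)) z = fderiv ℝ f (Φ z) (fderiv ℝ Φ z (e a)) :=
    congrArg (fun L : X3 →L[ℝ] ℝ => L (e a)) h1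
  have h3 : fderiv ℝ Φ z (e a) = ∑ i, fderiv ℝ Φ z (e a) i • ee i := by
    ext j
    simp [ee, Pi.single_apply]
  rw [h2, h3, map_sum]
  simp only [map_smul, smul_eq_mul, JG_eq (sm_diff g.sm z), P354I.pd]

lemma Gd.jm (g : Gd Φ) : MS (JG Φ) := fun a i =>
  sm_pd ((EuclideanSpace.proj i : X →L[ℝ] ℝ).contDiff.comp (g.sm)) a

lemma Gd.sym (g : Gd Φ) (a b i : Fin 3) (z : X3) :
    pd a (fun w => JG Φ w b i) z = pd b (fun w => JG Φ w a i) z :=
  pd_comm ((EuclideanSpace.proj i : X →L[ℝ] ℝ).contDiff.comp (g.sm)) a b z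

lemma Gd.ji (g : Gd Φ) : MS fun z => (JG Φ z)⁻¹ := fun i j =>
  contDiffOn_univ.1 (inv_smoothOn (fun i j => (g.jm i j).contDiffOn)
    (fun z _ => g.det z) i j)

lemma Gd.ji_j (g : Gd Φ) (z : X3) : (JG Φ z)⁻¹ * JG Φ z = 1 :=
  Matrix.nonsing_inv_mul _ (g.det z).isUnit

lemma Gd.j_ji (g : Gd Φ) (z : X3) : JG Φ z * (JG Φ z)⁻¹ = 1 := mul_eq_one_comm.1 (g.ji_j z)

lemma Gd.pb (g : Gd Φ) {F : X → M3} (h : ∀ i j, ContDiffOn ℝ ∞ (fun y => F y i j) {0}ᶜ) :
    MS (pg Φ F) :=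
  ((g.jm).mul (N := fun z => F (Φ z)) fun i j => y_compG (h i j) g).mul (g.jm).tr

lemma toPDG (D : PDy d) (g : Gd Φ) : PD (pg Φ d.h) (pg Φ d.K) := by
  refine ⟨g.pb fun i j => (D.1 i j).1, g.pb fun i j => (D.1 i j).2, fun z => ⟨?_, ?_⟩⟩
  · have := (D.2 _ (g.ne z)).1.mul_mul_conjTranspose_same (B := JG Φ z)
      (Matrix.vecMul_injective_iff_isUnit.2 ((Matrix.isUnit_iff_isUnit_det _).2
        (g.det z).isUnit))
    rwa [conjTranspose_eq_transpose_of_trivial] at this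
  · unfold pg IsSymm
    rw [transpose_mul, transpose_mul, transpose_transpose, (D.2 _ (g.ne z)).2.eq, mul_assoc]

/-- The pull back of the connection to the chart. -/
def Ap (d : P354I.Dat) (Φ : X3 → X) (a : Fin 3) (z : X3) : M4 := ∑ i, JG Φ z a i • Ay d i (Φ z)

lemma aypG (D : PDy d) (g : Gd Φ) (i : Fin 3) : MS fun z => Ay d i (Φ z) :=
  fun a b => y_compG (D.ay i a b) g

lemma apG (D : PDy d) (g : Gd Φ) (a : Fin 3) : MS (Ap d Φ a) :=
  MS.sum Finset.univ fun i _ => MS.smul (g.jm a i) (aypG D g i)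

lemma curv_apG (D : PDy d) (g : Gd Φ) (a b : Fin 3) (z : X3) :
    curv (Ap d Φ) a b z = ∑ i, ∑ j, (JG Φ z a i * JG Φ z b j) • Fy d i j (Φ z) := by
  have k0 : ∀ a j, MD a (fun z => Ay d j (Φ z)) z = ∑ i, JG Φ z a i •
      Matrix.of fun c e => P354I.pd i (fun y => Ay d j y c e) (Φ z) := by
    intro a j
    ext c e
    rw [MD_apply, chainG (D.ay j c e) g]
    simp only [Matrix.sum_apply, Matrix.smul_apply, of_apply, smul_eq_mul]
  have k : ∀ a b, MD a (Ap d Φ b) z = ∑ j, (pd a (fun w => JG Φ w b j) z • Ay d j (Φ z) +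
      JG Φ z b j • ∑ i, JG Φ z a i •
        Matrix.of fun c e => P354I.pd i (fun y => Ay d j y c e) (Φ z)) := by
    intro a b
    unfold Ap
    rw [MD_sum _ fun j _ => MS.smul (g.jm b j) (aypG D g j)]
    exact Finset.sum_congr rfl fun j _ => by rw [MD_smul (g.jm b j) (aypG D g j), k0]
  unfold curv
  rw [k, k]
  simp only [g.sym b a, Ap, Fy, Fin.sum_univ_three, smul_add, smul_sub, mul_add, add_mul,
    Matrix.smul_mul, Matrix.mul_smul, smul_smul]
  module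

lemma met_apG (D : PDy d) (g : Gd Φ) : IsMet (G4 fun z => d.h (Φ z)) (Ap d Φ) := by
  intro a z
  have h5 : (Ap d Φ a z)ᵀ * G4 (fun z => d.h (Φ z)) z +
      G4 (fun z => d.h (Φ z)) z * Ap d Φ a z = ∑ i, JG Φ z a i •
        ((Ay d i (Φ z))ᵀ * blk (-1) 0 0 (d.h (Φ z)) +
          blk (-1) 0 0 (d.h (Φ z)) * Ay d i (Φ z)) := by
    simp only [Ap, G4, Fin.sum_univ_three, transpose_add, transpose_smul, mul_add, add_mul,
      Matrix.smul_mul, Matrix.mul_smul, smul_add]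
    abel
  rw [h5, MD_G4]
  simp only [D.met (g.ne z)]
  ext c e
  refine Fin.cases ?_ (fun k => ?_) c <;> refine Fin.cases ?_ (fun j => ?_) e <;>
    simp only [Matrix.sum_apply, Matrix.smul_apply, blk_00, blk_0s, blk_s0, blk_ss, Pi.zero_apply,
      of_apply, smul_eq_mul, mul_zero, Finset.sum_const_zero]
  exact chainG (D.1 k j).1 g a z

lemma tf_apG (D : PDy d) (g : Gd Φ) : IsTF (fun z => I4 * (JG Φ z)ᵀ) (Ap d Φ) := by
  intro a b z c
  have sy : ∀ i j, Ay d i (Φ z) c (Fin.succ j) = Ay d j (Φ z) c i.succ := by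
    intro i j
    refine Fin.cases ?_ (fun k => ?_) c
    · exact D.symK (g.ne z) i j
    · exact D.chr_sym (g.ne z) k i j
  have k : ∀ a b, cov (Ap d Φ) a (fun z => I4 * (JG Φ z)ᵀ) z c b =
      ∑ i, I4 c i * pd a (fun w => JG Φ w b i) z +
        ∑ j, (∑ i, JG Φ z a i * Ay d i (Φ z) c j.succ) * JG Φ z b j := by
    intro a b
    unfold cov
    rw [MD_mul (MS.const I4) (g.jm).tr, MD_const, Matrix.zero_mul, zero_add, ← Matrix.mul_assoc,
      Matrix.add_apply, Matrix.mul_apply, Matrix.mul_apply]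
    simp only [mul_I4, Ap, Matrix.sum_apply, Matrix.smul_apply, smul_eq_mul, transpose_apply]
    rfl
  rw [k, k]
  simp only [g.sym b a, Fin.sum_univ_three, sy 1 0, sy 2 0, sy 2 1]
  ring

lemma gw_eqG (D : PDy d) (g : Gd Φ) :
    gauge (S0 (fun _ => 1) (JG Φ)) (T0 (fun _ => 1) fun z => (JG Φ z)⁻¹) (Ap d Φ) =
      GW (pg Φ d.h) (fun z => (pg Φ d.h z)⁻¹) (pg Φ d.K) ∧
    MS (S0 (fun _ => 1) (JG Φ)) ∧ MS (T0 (fun _ => 1) fun z => (JG Φ z)⁻¹) ∧
    ∀ z, T0 (fun _ => 1) (fun z => (JG Φ z)⁻¹) z * S0 (fun _ => 1) (JG Φ) z = 1 := by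
  have sS : MS (S0 (fun _ => 1) (JG Φ)) :=
    MS.blk contDiff_const (fun _ => contDiff_const) (fun _ => contDiff_const) (g.jm).tr
  have sT : MS (T0 (fun _ => 1) fun z => (JG Φ z)⁻¹) :=
    MS.blk contDiff_const (fun _ => contDiff_const) (fun _ => contDiff_const) (g.ji).tr
  have TS : ∀ z, T0 (fun _ => 1) (fun z => (JG Φ z)⁻¹) z * S0 (fun _ => 1) (JG Φ) z = 1 := by
    intro z
    unfold T0 S0
    rw [blk_mul, inv_one, one_mul, ← transpose_mul, g.j_ji, transpose_one, blk_one]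
  refine ⟨(toPDG D g).dat.uniq ?_ ?_ fun i j z => ?_, sS, sT, TS⟩
  · have := IsMet.gauge sS TS (ms_G4 (h := fun z => d.h (Φ z)) fun i j => y_compG (D.1 i j).1 g)
      (met_apG D g)
    convert this using 2 with z
    unfold S0 G4
    rw [blk_tr, blk_mul, blk_mul, transpose_transpose]
    simp [pg]
  · have := IsTF.gauge sS sT TS ((MS.const I4).mul (g.jm).tr) (tf_apG D g)
    convert this using 2 with z
    ext c b
    rw [← Matrix.mul_assoc, Matrix.mul_apply]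
    simp only [T0_I4, transpose_apply]
    refine Fin.cases ?_ (fun k => ?_) c
    · simp [I4, (Fin.succ_ne_zero b).symm]
    · have := congrFun (congrFun (g.j_ji z) b) k
      simp only [Matrix.mul_apply, Matrix.one_apply] at this
      simp only [Fin.cases_succ, mul_comm ((JG Φ z)⁻¹ _ k), this, I4, of_apply, Fin.succ_inj,
        eq_comm]
  · have k1 : (T0 (fun _ => 1) (fun z => (JG Φ z)⁻¹) z * MD i (S0 (fun _ => 1) (JG Φ)) z) 0
        j.succ = 0 := by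
      simp only [Matrix.mul_apply, Fin.sum_univ_succ (n := 3), T0, blk_00, blk_0s, Pi.zero_apply,
        zero_mul, Finset.sum_const_zero, add_zero, MD_apply, S0, pd_const, mul_zero]
    simp only [P354J.gauge, Matrix.add_apply, k1, add_zero]
    refine (blk_conj_0s _ _ _ _ _ _).trans ?_
    simp only [Ap, Ay, pg, Matrix.mul_apply, Matrix.sum_apply, Matrix.smul_apply, blk_0s,
      transpose_apply, smul_eq_mul, inv_one, one_mul]

theorem sl2G (D : PDy d) (g : Gd Φ) (z : X3) : CC (pg Φ d.h) (pg Φ d.K) z ↔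
    (d.scal (Φ z) + d.trK (Φ z) ^ 2 - d.sqK (Φ z) = 0 ∧
      ∀ j, d.divK j (Φ z) - P354I.pd j d.trK (Φ z) = 0) := by
  obtain ⟨gw, sS, sT, TS⟩ := gw_eqG D g
  have hy := g.ne z
  have hH : (JG Φ z)ᵀ * (pg Φ d.h z)⁻¹ * JG Φ z = (1 : ℝ) • (d.h (Φ z))⁻¹ := by
    unfold pg
    rw [Matrix.mul_inv_rev, Matrix.mul_inv_rev, ← transpose_nonsing_inv, ← mul_assoc,
      ← transpose_mul, g.ji_j, transpose_one, one_mul, mul_assoc, g.ji_j, mul_one, one_smul]
  obtain ⟨k1, k2⟩ := ham_tr (p := (1 : ℝ)⁻¹) (q := 1) (fun i j => Fy d i j (Φ z))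
    (fun a b => curv (GW (pg Φ d.h) (fun z => (pg Φ d.h z)⁻¹) (pg Φ d.K)) a b z) (g.ji_j z) hH
    (fun a b => by
      rw [← gw, curv_gauge sS sT (apG D g) TS, curv_apG D g]
      simp only [Matrix.mul_sum, Matrix.sum_mul, Matrix.mul_smul, Matrix.smul_mul]
      rfl)
  unfold CC
  rw [k1, one_mul, D.ham_y hy]
  simp only [k2, D.mom_y hy, inv_one, one_mul]
  refine and_congr Iff.rfl ⟨fun k i => ?_, fun k a => by simp [k]⟩
  have h1 : (JG Φ z)⁻¹ *ᵥ (JG Φ z *ᵥ fun i =>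
      -(d.divK i (Φ z) - P354I.pd i d.trK (Φ z))) = (JG Φ z)⁻¹ *ᵥ 0 := by
    congr 1
    funext a
    exact k a
  rw [mulVec_mulVec, g.ji_j, one_mulVec, mulVec_zero] at h1
  exact neg_eq_zero.1 (congrFun h1 i)

end Vale.Agent.P354PU
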